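import Vale.Agent.P039.Defs
import Mathlib.LinearAlgebra.Matrix.Rank
import Mathlib.Algebra.Field.ZMod
import Mathlib.Combinatorics.SimpleGraph.Connectivity.Connected
import Mathlib.Combinatorics.SimpleGraph.Finite

namespace Vale.Agent.P039

open Finset

variable {V : Type*} {G : SimpleGraph V}

namespace Rotation

variable (R : Rotation G)

def faceOf (d : G.Dart) : R.Face :=
  Quotient.mk (Equiv.Perm.SameCycle.setoid R.facePerm) d

theorem facePerm_apply (d : G.Dart) : R.facePerm d = R.rot d.symm := rfl

theorem faceOf_facePerm (d : G.Dart) : R.faceOf (R.facePerm d) = R.faceOf d := by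
  apply Quotient.sound
  change Equiv.Perm.SameCycle R.facePerm (R.facePerm d) d
  exact Equiv.Perm.sameCycle_apply_left.2 (Equiv.Perm.SameCycle.refl _ _)

theorem faceOf_rot_symm (d : G.Dart) : R.faceOf (R.rot d.symm) = R.faceOf d :=
  R.faceOf_facePerm d

theorem fst_facePerm (d : G.Dart) : (R.facePerm d).fst = d.snd := by
  rw [facePerm_apply, R.fst_rot]; rfl

theorem faceOf_surj (f : R.Face) : ∃ d, R.faceOf d = f := Quotient.exists_rep f

end Rotation

theorem dart_ne_symm (d : G.Dart) : d ≠ d.symm := by
  intro h
  have := d.fst_ne_snd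
  apply this
  have h2 := congrArg (fun e : G.Dart => e.fst) h
  exact h2

/-- the edge of a dart, as an element of the edge set. -/
def edgeOf (d : G.Dart) : G.edgeSet := ⟨d.edge, d.edge_mem⟩

theorem edgeOf_symm (d : G.Dart) : edgeOf d.symm = edgeOf d := by
  apply Subtype.ext; exact SimpleGraph.Dart.edge_symm d

theorem edgeOf_eq_iff (d e : G.Dart) : edgeOf d = edgeOf e ↔ d = e ∨ d = e.symm := by
  rw [← SimpleGraph.dart_edge_eq_iff]
  constructor
  · intro h; exact congrArg Subtype.val h
  · intro h; exact Subtype.ext h

theorem edgeOf_surj (e : G.edgeSet) : ∃ d, edgeOf d = e := by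
  obtain ⟨⟨u, v⟩, h⟩ := e
  exact ⟨⟨(u, v), h⟩, rfl⟩

section Finite

variable [Fintype V] (R : Rotation G)

noncomputable instance instFintypeDart : Fintype G.Dart := by
  classical exact Fintype.ofFinite _

noncomputable instance instFintypeEdge : Fintype G.edgeSet := by
  classical exact Fintype.ofFinite _

noncomputable instance instFintypeFace : Fintype R.Face := by
  classical
  exact Fintype.ofSurjective R.faceOf R.faceOf_surj

open Classical in
theorem sum_dart_edge {M : Type*} [AddCommMonoid M] (d₀ : G.Dart) (g : G.Dart → M) :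
    (∑ d : G.Dart, if edgeOf d = edgeOf d₀ then g d else 0) = g d₀ + g d₀.symm := by
  rw [← Finset.sum_filter]
  have : (univ.filter fun d : G.Dart => edgeOf d = edgeOf d₀) = {d₀, d₀.symm} := by
    ext d
    simp only [mem_filter, mem_univ, true_and, mem_insert, mem_singleton]
    exact edgeOf_eq_iff d d₀
  rw [this, Finset.sum_pair (dart_ne_symm d₀)]

open Classical in
/-- face-edge incidence matrix. -/
noncomputable def faceMat : Matrix R.Face G.edgeSet (ZMod 2) :=
  fun f e => ∑ d : G.Dart, if edgeOf d = e then (if R.faceOf d = f then 1 else 0) else 0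

open Classical in
theorem faceMat_mulVec (y : G.edgeSet → ZMod 2) (f : R.Face) :
    (faceMat R).mulVec y f = ∑ d : G.Dart, if R.faceOf d = f then y (edgeOf d) else 0 := by
  unfold faceMat Matrix.mulVec dotProduct
  simp only [Finset.sum_mul]
  rw [Finset.sum_comm]
  apply Finset.sum_congr rfl
  intro d _
  rw [Finset.sum_eq_single (edgeOf d)]
  · simp
  · intro e _ he
    rw [if_neg (Ne.symm he), zero_mul]
  · intro h; exact absurd (mem_univ _) h

theorem faceMat_transpose_mulVec (z : R.Face → ZMod 2) (d : G.Dart) :
    (faceMat R).transpose.mulVec z (edgeOf d) = z (R.faceOf d) + z (R.faceOf d.symm) := by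
  classical
  simp only [Matrix.mulVec, dotProduct, Matrix.transpose_apply]
  unfold faceMat
  simp only [Finset.sum_mul]
  rw [Finset.sum_comm]
  have h1 : ∀ d' : G.Dart, (∑ f : R.Face,
      (if edgeOf d' = edgeOf d then (if R.faceOf d' = f then (1 : ZMod 2) else 0) else 0) * z f)
      = if edgeOf d' = edgeOf d then z (R.faceOf d') else 0 := by
    intro d'
    split_ifs with h
    · rw [Finset.sum_eq_single (R.faceOf d')]
      · simp
      · intro f _ hf
        rw [if_neg (Ne.symm hf), zero_mul]
      · intro h; exact absurd (mem_univ _) h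
    · simp
  have h2 := sum_dart_edge d (fun d' => z (R.faceOf d'))
  rw [← h2]
  apply Finset.sum_congr rfl
  intro d' _
  rw [← h1 d']

open Classical in
/-- coboundary matrix. -/
noncomputable def vertMat (G : SimpleGraph V) : Matrix G.edgeSet V (ZMod 2) :=
  fun e v => ∑ d : G.Dart, if edgeOf d = e then (if d.fst = v then 1 else 0) else 0

theorem vertMat_mulVec (x : V → ZMod 2) (d : G.Dart) :
    (vertMat G).mulVec x (edgeOf d) = x d.fst + x d.snd := by
  classical
  unfold vertMat Matrix.mulVec dotProduct
  simp only [Finset.sum_mul]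
  rw [Finset.sum_comm]
  have h1 : ∀ d' : G.Dart, (∑ v : V,
      (if edgeOf d' = edgeOf d then (if d'.fst = v then (1 : ZMod 2) else 0) else 0) * x v)
      = if edgeOf d' = edgeOf d then x d'.fst else 0 := by
    intro d'
    split_ifs with h
    · rw [Finset.sum_eq_single d'.fst]
      · simp
      · intro f _ hf
        rw [if_neg (Ne.symm hf), zero_mul]
      · intro h; exact absurd (mem_univ _) h
    · simp
  have h2 := sum_dart_edge d (fun d' => x d'.fst)
  change _ = x d.fst + x d.symm.fst
  rw [← h2]
  apply Finset.sum_congr rfl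
  intro d' _
  rw [← h1 d']

theorem zmod2_add_self (a : ZMod 2) : a + a = 0 := by
  have : (2 : ZMod 2) = 0 := by decide
  rw [← two_mul, this, zero_mul]

/-- cuts are even on every face. -/
theorem faceMat_vertMat (x : V → ZMod 2) :
    (faceMat R).mulVec ((vertMat G).mulVec x) = 0 := by
  classical
  funext f
  rw [faceMat_mulVec]
  simp only [vertMat_mulVec, Pi.zero_apply]
  have h1 : ∀ d : G.Dart, (if R.faceOf d = f then x d.fst + x d.snd else 0)
      = (if R.faceOf d = f then x d.fst else 0) +
        (if R.faceOf (R.facePerm d) = f then x (R.facePerm d).fst else 0) := by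
    intro d
    rw [R.faceOf_facePerm, R.fst_facePerm]
    split_ifs <;> simp
  simp only [h1]
  rw [Finset.sum_add_distrib]
  have h2 := Equiv.sum_comp R.facePerm (fun d => if R.faceOf d = f then x d.fst else 0)
  rw [h2]
  exact zmod2_add_self _


/-- a function on the darts which is invariant under reversal and rotation is constant. -/
theorem const_of_invariant {α : Type*} (hG : G.Preconnected) (z : G.Dart → α)
    (h1 : ∀ d, z d.symm = z d) (h2 : ∀ d, z (R.rot d) = z d) (d e : G.Dart) : z d = z e := by
  have h4 : ∀ (n : ℕ) (d : G.Dart), z ((R.rot ^ n) d) = z d := by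
    intro n
    induction n with
    | zero => intro d; rfl
    | succ n ih =>
      intro d
      rw [pow_succ, Equiv.Perm.mul_apply, ih, h2]
  have h3 : ∀ d e : G.Dart, d.fst = e.fst → z d = z e := by
    intro d e hde
    obtain ⟨n, hn⟩ := (R.cyclic d e hde).exists_nat_pow_eq
    rw [← hn, h4]
  obtain ⟨w⟩ := hG d.fst e.fst
  have h5 : ∀ (u v : V) (_ : G.Walk u v) (d e : G.Dart), d.fst = u → e.fst = v → z d = z e := by
    intro u v w
    induction w with
    | nil => intro d e hd he; exact h3 d e (hd.trans he.symm)
    | @cons u v' v h p ih =>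
      intro d e hd he
      have e1 : z d = z ⟨(u, v'), h⟩ := h3 _ _ hd
      have e2 : z (⟨(u, v'), h⟩ : G.Dart) = z (⟨(u, v'), h⟩ : G.Dart).symm := (h1 _).symm
      rw [e1, e2]
      exact ih _ e rfl he
  exact h5 _ _ w d e rfl rfl

theorem eq_const_of_ker_faceMat_transpose (hG : G.Preconnected) (z : R.Face → ZMod 2)
    (hz : (faceMat R).transpose.mulVec z = 0) (f g : R.Face) : z f = z g := by
  obtain ⟨d, rfl⟩ := R.faceOf_surj f
  obtain ⟨e, rfl⟩ := R.faceOf_surj g
  have h1 : ∀ d : G.Dart, z (R.faceOf d.symm) = z (R.faceOf d) := by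
    intro d
    have h := congrFun hz (edgeOf d)
    rw [faceMat_transpose_mulVec] at h
    have h' : z (R.faceOf d) + z (R.faceOf d.symm) = 0 := h
    have h2 := zmod2_add_self (z (R.faceOf d))
    have := h'.trans h2.symm
    exact add_left_cancel this
  apply const_of_invariant R hG (fun d => z (R.faceOf d)) h1
  intro d
  have := R.faceOf_rot_symm d.symm
  simp only [SimpleGraph.Dart.symm_symm] at this
  change z (R.faceOf (R.rot d)) = _
  rw [this, h1]

theorem eq_const_of_ker_vertMat (hG : G.Preconnected) (x : V → ZMod 2)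
    (hx : (vertMat G).mulVec x = 0) (u v : V) : x u = x v := by
  obtain ⟨w⟩ := hG u v
  induction w with
  | nil => rfl
  | @cons u v' v h p ih =>
    rw [← ih]
    have h0 := congrFun hx (edgeOf (⟨(u, v'), h⟩ : G.Dart))
    rw [vertMat_mulVec] at h0
    have h' : x u + x v' = 0 := h0
    have h2 := zmod2_add_self (x v')
    have := h'.trans h2.symm
    exact add_right_cancel this

theorem finrank_ker_le_one {ι κ : Type*} [Fintype ι] [Fintype κ]
    (M : Matrix κ ι (ZMod 2)) (h : ∀ z : ι → ZMod 2, M.mulVec z = 0 → ∀ f g, z f = z g) :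
    Module.finrank (ZMod 2) (LinearMap.ker M.mulVecLin) ≤ 1 := by
  classical
  have : LinearMap.ker M.mulVecLin ≤ Submodule.span (ZMod 2) {(fun _ => 1 : ι → ZMod 2)} := by
    intro z hz
    rw [LinearMap.mem_ker, Matrix.mulVecLin_apply] at hz
    have hc := h z hz
    rw [Submodule.mem_span_singleton]
    by_cases hι : Nonempty ι
    · obtain ⟨i⟩ := hι
      refine ⟨z i, ?_⟩
      funext j
      simp [hc j i]
    · refine ⟨0, ?_⟩
      funext j
      exact absurd ⟨j⟩ hι
  calc _ ≤ Module.finrank (ZMod 2)
        (Submodule.span (ZMod 2) {(fun _ => 1 : ι → ZMod 2)}) := Submodule.finrank_mono this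
    _ ≤ 1 := by
      have := finrank_span_le_card (R := ZMod 2) ({(fun _ => 1 : ι → ZMod 2)} : Set (ι → ZMod 2))
      simpa using this

theorem finrank_range_add_one_ge {ι κ : Type*} [Fintype ι] [Fintype κ]
    (M : Matrix κ ι (ZMod 2)) (h : ∀ z : ι → ZMod 2, M.mulVec z = 0 → ∀ f g, z f = z g) :
    Fintype.card ι ≤ M.rank + 1 := by
  have h1 := LinearMap.finrank_range_add_finrank_ker M.mulVecLin
  have h2 := finrank_ker_le_one M h
  rw [Module.finrank_fintype_fun_eq_card] at h1
  unfold Matrix.rank
  omega

/-- Planar duality, first form: in a connected plane graph, every set of edges that meets every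
face an even number of times is a cut. -/
theorem exists_cut (hG : G.Preconnected)
    (hE : Fintype.card V + Fintype.card R.Face = Fintype.card G.edgeSet + 2)
    (y : G.edgeSet → ZMod 2) (hy : (faceMat R).mulVec y = 0) :
    ∃ x : V → ZMod 2, ∀ d : G.Dart, y (edgeOf d) = x d.fst + x d.snd := by
  classical
  have h1 := finrank_range_add_one_ge (faceMat R).transpose
    (eq_const_of_ker_faceMat_transpose R hG)
  rw [Matrix.rank_transpose] at h1
  have h2 := finrank_range_add_one_ge (vertMat G) (eq_const_of_ker_vertMat hG)
  have h3 := LinearMap.finrank_range_add_finrank_ker (faceMat R).mulVecLin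
  rw [Module.finrank_fintype_fun_eq_card] at h3
  have h4 : LinearMap.range (vertMat G).mulVecLin ≤ LinearMap.ker (faceMat R).mulVecLin := by
    rintro _ ⟨x, rfl⟩
    rw [LinearMap.mem_ker]
    exact faceMat_vertMat R x
  have h5 : Module.finrank (ZMod 2) (LinearMap.ker (faceMat R).mulVecLin) ≤
      Module.finrank (ZMod 2) (LinearMap.range (vertMat G).mulVecLin) := by
    unfold Matrix.rank at h1 h2
    omega
  have h6 := Submodule.eq_of_le_of_finrank_le h4 h5
  have h7 : y ∈ LinearMap.range (vertMat G).mulVecLin := by
    rw [h6, LinearMap.mem_ker]; exact hy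
  obtain ⟨x, hx⟩ := h7
  refine ⟨x, fun d => ?_⟩
  rw [← hx]
  exact vertMat_mulVec x d

/-- Planar duality, second form: in a connected plane graph, every set of edges that meets every
vertex an even number of times is the boundary of a set of faces. -/
theorem exists_face_coboundary (hG : G.Preconnected)
    (hE : Fintype.card V + Fintype.card R.Face = Fintype.card G.edgeSet + 2)
    (y : G.edgeSet → ZMod 2) (hy : (vertMat G).transpose.mulVec y = 0) :
    ∃ z : R.Face → ZMod 2, ∀ d : G.Dart, y (edgeOf d) = z (R.faceOf d) + z (R.faceOf d.symm) := by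
  classical
  have h1 := finrank_range_add_one_ge (faceMat R).transpose
    (eq_const_of_ker_faceMat_transpose R hG)
  have h2 := finrank_range_add_one_ge (vertMat G) (eq_const_of_ker_vertMat hG)
  rw [← Matrix.rank_transpose] at h2
  have h3 := LinearMap.finrank_range_add_finrank_ker (vertMat G).transpose.mulVecLin
  rw [Module.finrank_fintype_fun_eq_card] at h3
  have h4 : LinearMap.range (faceMat R).transpose.mulVecLin ≤
      LinearMap.ker (vertMat G).transpose.mulVecLin := by
    rintro _ ⟨z, rfl⟩
    rw [LinearMap.mem_ker]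
    change (vertMat G).transpose.mulVec ((faceMat R).transpose.mulVec z) = 0
    rw [Matrix.mulVec_mulVec, ← Matrix.transpose_mul]
    have : faceMat R * vertMat G = 0 := by
      apply Matrix.toLin'.injective
      apply LinearMap.ext
      intro x
      rw [map_zero, LinearMap.zero_apply, Matrix.toLin'_apply, ← Matrix.mulVec_mulVec]
      exact faceMat_vertMat R x
    rw [this, Matrix.transpose_zero, Matrix.zero_mulVec]
  have h5 : Module.finrank (ZMod 2) (LinearMap.ker (vertMat G).transpose.mulVecLin) ≤
      Module.finrank (ZMod 2) (LinearMap.range (faceMat R).transpose.mulVecLin) := by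
    unfold Matrix.rank at h1 h2
    omega
  have h6 := Submodule.eq_of_le_of_finrank_le h4 h5
  have h7 : y ∈ LinearMap.range (faceMat R).transpose.mulVecLin := by
    rw [h6, LinearMap.mem_ker]; exact hy
  obtain ⟨z, hz⟩ := h7
  refine ⟨z, fun d => ?_⟩
  rw [← hz]
  exact faceMat_transpose_mulVec R z d

end Finite

open Classical in
/-- unit vector -/
noncomputable def unitVec {ι : Type*} (i : ι) : ι → ZMod 2 := fun j => if j = i then 1 else 0

theorem unitVec_self {ι : Type*} (i : ι) : unitVec i i = 1 := if_pos rfl

theorem unitVec_ne {ι : Type*} {i j : ι} (h : j ≠ i) : unitVec i j = 0 := if_neg h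

section Finite

variable [Fintype V] (R : Rotation G)

theorem faceMat_unitVec (d : G.Dart) :
    (faceMat R).mulVec (unitVec (edgeOf d)) =
      unitVec (R.faceOf d) + unitVec (R.faceOf d.symm) := by
  classical
  funext f
  rw [faceMat_mulVec, Pi.add_apply]
  have h := sum_dart_edge d (fun d' => if R.faceOf d' = f then (1 : ZMod 2) else 0)
  have e1 : unitVec (R.faceOf d) f = if R.faceOf d = f then 1 else 0 := by
    unfold unitVec; simp only [eq_comm]
  have e2 : unitVec (R.faceOf d.symm) f = if R.faceOf d.symm = f then 1 else 0 := by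
    unfold unitVec; simp only [eq_comm]
  rw [e1, e2]
  refine Eq.trans ?_ (Eq.trans h ?_)
  · apply Finset.sum_congr rfl
    intro d' _
    unfold unitVec
    split_ifs <;> rfl
  · rfl

end Finite

end Vale.Agent.P039
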